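import Mathlib

namespace Vale.Agent.P256.Cubic

open Finset

variable {n : ℕ}

/-- Bilinear forms on `ℝ^n`. -/
abbrev Bil (n : ℕ) := (Fin n → ℝ) →ₗ[ℝ] (Fin n → ℝ) →ₗ[ℝ] ℝ
/-- Trilinear forms on `ℝ^n`. -/
abbrev Tri (n : ℕ) := (Fin n → ℝ) →ₗ[ℝ] (Fin n → ℝ) →ₗ[ℝ] (Fin n → ℝ) →ₗ[ℝ] ℝ

structure IsSymTri (T : Tri n) : Prop where
  swap12 : ∀ x y z, T x y z = T y x z
  swap23 : ∀ x y z, T x y z = T x z y

lemma tri_line {T : Tri n} (h : IsSymTri T) (y w : Fin n → ℝ) (s : ℝ) :
    T (y + s • w) (y + s • w) (y + s • w) =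
      T y y y + 3 * s * T w y y + 3 * s ^ 2 * T w w y + s ^ 3 * T w w w := by
  simp only [map_add, map_smul, LinearMap.add_apply, LinearMap.smul_apply, smul_eq_mul]
  rw [h.swap12 y w y, h.swap23 y y w, h.swap12 y w y, h.swap23 w y w, h.swap12 y w w,
    h.swap23 w y w]
  ring

lemma bil_line {B : Bil n} (h : ∀ x y, B x y = B y x) (y w : Fin n → ℝ) (s : ℝ) :
    B (y + s • w) (y + s • w) = B y y + 2 * s * B w y + s ^ 2 * B w w := by
  simp only [map_add, map_smul, LinearMap.add_apply, LinearMap.smul_apply, smul_eq_mul]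
  rw [h y w]
  ring

/-- Lorentzian symmetric bilinear form with time direction `e`. -/
structure Lor (B : Bil n) (e : Fin n → ℝ) : Prop where
  symm : ∀ x y, B x y = B y x
  pos : 0 < B e e
  rcs : ∀ x, B e e * B x x ≤ B e x ^ 2

/-- The closed forward cone. -/
def Cone (B : Bil n) (e x : Fin n → ℝ) : Prop := 0 ≤ B x x ∧ 0 ≤ B e x

/-- The positive semidefinite complement of the time direction. -/
def spat (B : Bil n) (e x y : Fin n → ℝ) : ℝ := B e x * B e y - B e e * B x y

lemma spat_sq {B : Bil n} {e : Fin n → ℝ} (h : Lor B e) (x y : Fin n → ℝ) :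
    spat B e x y ^ 2 ≤ spat B e x x * spat B e y y := by
  have key : ∀ s : ℝ, 0 ≤ spat B e y y * (s * s) + 2 * spat B e x y * s + spat B e x x := by
    intro s
    have := h.rcs (x + s • y)
    simp only [spat, map_add, map_smul, LinearMap.add_apply, LinearMap.smul_apply,
      smul_eq_mul] at this ⊢
    rw [h.symm y x] at this
    nlinarith
  have := discrim_le_zero key
  rw [discrim] at this
  nlinarith

lemma cone_inner {B : Bil n} {e : Fin n → ℝ} (h : Lor B e) {x y : Fin n → ℝ}
    (hx : Cone B e x) (hy : Cone B e y) : 0 ≤ B x y := by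
  have hs := spat_sq h x y
  have hxx : spat B e x x ≤ B e x * B e x := by
    have := mul_nonneg h.pos.le hx.1
    simp only [spat]; linarith
  have hyy : spat B e y y ≤ B e y * B e y := by
    have := mul_nonneg h.pos.le hy.1
    simp only [spat]; linarith
  have hy0 : 0 ≤ spat B e y y := by
    have := h.rcs y
    simp only [spat]; nlinarith
  have h2 : spat B e x y ^ 2 ≤ (B e x * B e y) ^ 2 := by
    calc spat B e x y ^ 2 ≤ spat B e x x * spat B e y y := hs
      _ ≤ (B e x * B e x) * (B e y * B e y) :=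
        mul_le_mul hxx hyy hy0 (mul_self_nonneg _)
      _ = _ := by ring
  have hle : spat B e x y ≤ B e x * B e y :=
    (abs_le.mp (abs_le_of_sq_le_sq h2 (mul_nonneg hx.2 hy.2))).2
  have h3 : 0 ≤ B e e * B x y := by simp only [spat] at hle; linarith
  exact (mul_nonneg_iff_of_pos_left h.pos).mp h3

lemma cone_add {B : Bil n} {e : Fin n → ℝ} (h : Lor B e) {x y : Fin n → ℝ}
    (hx : Cone B e x) (hy : Cone B e y) : Cone B e (x + y) := by
  have h0 := cone_inner h hx hy
  refine ⟨?_, ?_⟩
  · simp only [map_add, LinearMap.add_apply, h.symm y x]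
    linarith [hx.1, hy.1]
  · simp only [map_add]
    linarith [hx.2, hy.2]

lemma rcs_gen {B : Bil n} {e : Fin n → ℝ} (h : Lor B e) (w y : Fin n → ℝ) (hw : 0 < B w w) :
    B w w * B y y ≤ B w y ^ 2 := by
  have hs := spat_sq h w y
  have a := h.pos
  rcases le_or_gt (B y y) 0 with hy | hy
  · nlinarith [sq_nonneg (B w y)]
  have key : (B e w ^ 2 - spat B e w w) * (B e y ^ 2 - spat B e y y)
      ≤ (B e w * B e y - spat B e w y) ^ 2 := by
    by_cases hz : B e w = 0
    · exfalso
      have := h.rcs w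
      rw [hz] at this
      nlinarith
    · have hp : (0:ℝ) < B e w ^ 2 := by positivity
      have h1 : 0 ≤ (spat B e w w * B e y - B e w * spat B e w y) ^ 2 := sq_nonneg _
      by_cases hww : spat B e w w = 0
      · rw [hww] at hs
        have hwy : spat B e w y = 0 := by nlinarith [sq_nonneg (spat B e w y)]
        rw [hww, hwy]
        have hyy : 0 ≤ spat B e y y := by have := h.rcs y; simp only [spat]; nlinarith
        nlinarith
      · have hpos : 0 < spat B e w w := lt_of_le_of_ne
          (by have := h.rcs w; simp only [spat]; nlinarith) (Ne.symm hww)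
        have hle : spat B e w w < B e w ^ 2 := by simp only [spat]; nlinarith
        have h2 : 0 ≤ (B e w ^ 2 - spat B e w w) * (spat B e w w * spat B e y y
            - spat B e w y ^ 2) := mul_nonneg (by linarith) (by linarith)
        refine le_of_mul_le_mul_left ?_ hpos
        nlinarith
  simp only [spat] at key
  have k2 : B e e ^ 2 * (B w w * B y y) ≤ B e e ^ 2 * (B w y ^ 2) := by nlinarith
  exact le_of_mul_le_mul_left k2 (by positivity)

/-- A null vector orthogonal to an interior vector is annihilated by time. -/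
lemma null_orth {B : Bil n} {e : Fin n → ℝ} (h : Lor B e) {w v : Fin n → ℝ}
    (hw : 0 < B w w) (hv : 0 ≤ B v v) (ho : B w v = 0) : B e v = 0 ∧ B v v = 0 := by
  have hvv : B v v = 0 := by
    have := rcs_gen h w v hw
    rw [ho] at this
    nlinarith
  refine ⟨?_, hvv⟩
  by_contra hb
  have hp : 0 < B e v ^ 2 := by positivity
  have hs := spat_sq h w v
  simp only [spat, ho, hvv] at hs
  nlinarith [mul_pos (mul_pos h.pos hw) hp]

end Vale.Agent.P256.Cubic
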