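import Vale.Agent.P256.Cubic.Main

namespace Vale.Agent.P256.Cubic

open Finset Matrix
open scoped MatrixOrder

variable {n : ℕ}

/-- Head coordinate. -/
def hd (n : ℕ) : (Fin (n + 1) → ℝ) →ₗ[ℝ] ℝ := LinearMap.proj 0

/-- Tail coordinates. -/
def tl (n : ℕ) : (Fin (n + 1) → ℝ) →ₗ[ℝ] (Fin n → ℝ) := LinearMap.funLeft ℝ ℝ Fin.succ

/-- A tail coordinate. -/
def pr (n : ℕ) (i : Fin n) : (Fin (n + 1) → ℝ) →ₗ[ℝ] ℝ := LinearMap.proj i.succ

/-- The inner product of the tails. -/
def dotB (n : ℕ) : Bil (n + 1) := ∑ i, (pr n i).smulRight (pr n i)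

/-- The trilinear form of `x₀³ - 3 x₀ |z|² + 2 S(z,z,z)`. -/
noncomputable def famT (S : Tri n) : Tri (n + 1) :=
  ((hd n).smulRight ((hd n).smulRight (hd n)) : Tri (n + 1))
    + (-1 : ℝ) • ((hd n).smulRight (dotB n) : Tri (n + 1))
    + (-1 : ℝ) • (∑ i, ((pr n i).smulRight ((hd n).smulRight (pr n i)) : Tri (n + 1)))
    + (-1 : ℝ) • (∑ i, ((pr n i).smulRight ((pr n i).smulRight (hd n)) : Tri (n + 1)))
    + (2 : ℝ) • ∑ i, ∑ j, ∑ l, S (Pi.single i 1) (Pi.single j 1) (Pi.single l 1) •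
        ((pr n i).smulRight ((pr n j).smulRight (pr n l)) : Tri (n + 1))

lemma tri_sum (S : Tri n) (x y z : Fin n → ℝ) : S x y z = ∑ i, ∑ j, ∑ l,
    x i * y j * z l * S (Pi.single i 1) (Pi.single j 1) (Pi.single l 1) := by
  conv_lhs => rw [pi_eq_sum_univ' x]
  simp only [map_sum, map_smul, LinearMap.sum_apply, LinearMap.smul_apply, smul_eq_mul]
  refine sum_congr rfl fun i _ => ?_
  rw [bil_sum (S (Pi.single i 1)) y z, mul_sum]
  exact sum_congr rfl fun j _ => by rw [mul_sum]; exact sum_congr rfl fun l _ => by ring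

lemma famT_apply (S : Tri n) (x y z : Fin (n + 1) → ℝ) :
    famT S x y z = x 0 * y 0 * z 0 - x 0 * (∑ i : Fin n, y i.succ * z i.succ)
      - y 0 * (∑ i : Fin n, x i.succ * z i.succ) - z 0 * (∑ i : Fin n, x i.succ * y i.succ)
      + 2 * S (tl n x) (tl n y) (tl n z) := by
  rw [tri_sum S]
  simp only [famT, hd, pr, dotB, tl, LinearMap.sub_apply, LinearMap.add_apply, LinearMap.smulRight_apply,
    LinearMap.sum_apply, LinearMap.smul_apply, LinearMap.proj_apply, smul_eq_mul, mul_sum,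
    LinearMap.funLeft_apply, neg_one_mul]
  simp only [sub_eq_add_neg, ← sum_neg_distrib]
  refine congrArg₂ (· + ·) ?_ (sum_congr rfl fun i _ => sum_congr rfl fun j _ => sum_congr rfl fun l _ => by ring)
  refine congrArg₂ (· + ·) (congrArg₂ (· + ·) (congrArg₂ (· + ·) (by ring) ?_) ?_) ?_ <;>
    exact sum_congr rfl fun i _ => by ring

lemma famT_sym {S : Tri n} (hS : IsSymTri S) : IsSymTri (famT S) := by
  constructor <;> intro x y z <;> simp only [famT_apply]
  · rw [hS.swap12 (tl n x)]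
    rw [sum_congr rfl fun i _ => mul_comm (x (Fin.succ i)) (y i.succ)]
    ring
  · rw [hS.swap23 (tl n x)]
    rw [sum_congr rfl fun i _ => mul_comm (y (Fin.succ i)) (z i.succ)]
    ring

/-- The direction `(1,0,…,0)`. -/
def dir (n : ℕ) : Fin (n + 1) → ℝ := Pi.single 0 1

lemma famT_dir2 (S : Tri n) (x y : Fin (n + 1) → ℝ) :
    famT S (dir n) x y = x 0 * y 0 - ∑ i : Fin n, x i.succ * y i.succ := by
  have h0 : tl n (dir n) = 0 := by ext i; simp [tl, dir, LinearMap.funLeft_apply]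
  rw [famT_apply, h0]
  simp [dir]

lemma famT_cube (S : Tri n) (x : Fin (n + 1) → ℝ) :
    famT S x x x = x 0 ^ 3 - 3 * x 0 * (∑ i : Fin n, x i.succ ^ 2)
      + 2 * S (tl n x) (tl n x) (tl n x) := by
  simp only [famT_apply, sq]
  ring

/-- The hypothesis: the flattening of `S` has operator norm at most `1`. -/
def Flat (S : Tri n) : Prop :=
  ∀ u : Fin n → ℝ, ∑ j, ∑ l, S u (Pi.single j 1) (Pi.single l 1) ^ 2 ≤ ∑ i, u i ^ 2

/-- The `n × n²` flattening. -/
noncomputable def flatM (S : Tri n) : Matrix (Fin n) (Fin n × Fin n) ℝ :=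
  fun i p => S (Pi.single i 1) (Pi.single p.1 1) (Pi.single p.2 1)

lemma flat_psd {S : Tri n} (h : Flat S) : (1 - (flatM S)ᵀ * flatM S).PosSemidef := by
  rw [posSemidef_real_iff]
  refine ⟨by simp [IsHermitian, transpose_mul], fun v => ?_⟩
  set u : Fin n → ℝ := flatM S *ᵥ v with hu
  have e : v ⬝ᵥ ((1 - (flatM S)ᵀ * flatM S) *ᵥ v) = ∑ p, v p ^ 2 - ∑ i, u i ^ 2 := by
    rw [sub_mulVec, one_mulVec, dotProduct_sub, ← mulVec_mulVec, dotProduct_mulVec,
      vecMul_transpose, ← hu]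
    simp [dotProduct, sq]
  rw [e]
  have h1 := h u
  have e1 : ∀ p : Fin n × Fin n,
      S u (Pi.single p.1 1) (Pi.single p.2 1) = (u ᵥ* flatM S) p := by
    intro p
    conv_lhs => rw [pi_eq_sum_univ' u]
    simp [vecMul, dotProduct, flatM, LinearMap.sum_apply]
  rw [← Fintype.sum_prod_type'] at h1
  simp only [e1] at h1
  have e2 : ∑ i, u i ^ 2 = ∑ p, (u ᵥ* flatM S) p * v p := by
    calc ∑ i, u i ^ 2 = u ⬝ᵥ (flatM S *ᵥ v) := by rw [← hu]; simp [dotProduct, sq]
      _ = (u ᵥ* flatM S) ⬝ᵥ v := dotProduct_mulVec _ _ _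

  have e3 := sum_mul_sq_le_sq_mul_sq univ (u ᵥ* flatM S) v
  rw [← e2] at e3
  have hv : 0 ≤ ∑ p, v p ^ 2 := sum_nonneg fun p _ => sq_nonneg _
  have h4 : (∑ i, u i ^ 2) ^ 2 ≤ (∑ i, u i ^ 2) * ∑ p, v p ^ 2 :=
    e3.trans (mul_le_mul_of_nonneg_right h1 hv)
  rcases (show 0 ≤ ∑ i, u i ^ 2 from sum_nonneg fun i _ => sq_nonneg _).lt_or_eq with hp | hp
  · rw [sq] at h4
    have := le_of_mul_le_mul_left h4 hp
    linarith
  · linarith

/-- Every member of the family is hyperbolic and has a decomposition with one atom. -/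
lemma family {S : Tri n} (hS : IsSymTri S) (h : Flat S) :
    IsSymTri (famT S) ∧ Hyp (famT S) (dir n) ∧
      ∃ (H : Fin (n + n * n) → Bil (n + 1)) (R : Bil (n + 1)),
        Atom (famT S (dir n)) (dir n) (famT S) (hd n) H R := by
  have hT := famT_sym hS
  obtain ⟨C, hC⟩ := CStarAlgebra.nonneg_iff_eq_star_mul_self.mp
    (show 0 ≤ 1 - (flatM S)ᵀ * flatM S from Matrix.nonneg_iff_posSemidef.mpr (flat_psd h))
  set w : (Fin n → ℝ) → Fin n × Fin n → ℝ := fun z p => z p.1 * z p.2 with hw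
  have hR : ∀ (z : Fin n → ℝ) i, (flatM S *ᵥ w z) i = S (Pi.single i 1) z z := by
    intro z i
    rw [bil_sum (S (Pi.single i 1)) z z, mulVec, dotProduct, Fintype.sum_prod_type]
    exact sum_congr rfl fun j _ => sum_congr rfl fun l _ => by simp [flatM, hw]; ring
  have hdec : ∀ z : Fin n → ℝ, (∑ p, (C *ᵥ w z) p ^ 2) + ∑ i, S (Pi.single i 1) z z ^ 2
      = (∑ i, z i ^ 2) ^ 2 := by
    intro z
    have e : w z ⬝ᵥ ((1 - (flatM S)ᵀ * flatM S) *ᵥ w z) = ∑ p, (C *ᵥ w z) p ^ 2 := by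
      rw [hC, star_eq_conjTranspose, ← mulVec_mulVec, dotProduct_mulVec, conjTranspose_eq_transpose_of_trivial,
        vecMul_transpose]
      simp [dotProduct, sq]
    rw [← e, sub_mulVec, one_mulVec, dotProduct_sub, ← mulVec_mulVec, dotProduct_mulVec (w z) (flatM S)ᵀ,
      vecMul_transpose]
    simp only [dotProduct, hR, ← sq, sub_add_cancel]
    rw [Fintype.sum_prod_type, sq (∑ i, z i ^ 2), sum_mul_sum]
    exact sum_congr rfl fun j _ => sum_congr rfl fun l _ => by simp [hw]; ring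
  have hS1 : ∀ z : Fin n → ℝ, S z z z = ∑ i, z i * S (Pi.single i 1) z z := by
    intro z
    conv_lhs => arg 1; arg 1; arg 2; rw [pi_eq_sum_univ' z]
    simp [LinearMap.sum_apply]
  refine ⟨hT, ⟨by rw [famT_dir2]; simp [dir], fun x z hz => ?_⟩, ?_⟩
  · have ha : famT S (dir n) (dir n) (dir n) = 1 := by rw [famT_dir2]; simp [dir]
    have hb : famT S (dir n) (dir n) x = x 0 := by rw [famT_dir2]; simp [dir]
    set s := ∑ i : Fin n, x i.succ ^ 2 with hs
    have hc : famT S (dir n) x x = x 0 ^ 2 - s := by rw [famT_dir2, hs]; simp [sq]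
    set r := S (tl n x) (tl n x) (tl n x) with hr
    rw [ha, hb, hc, famT_cube, ← hs, ← hr] at hz
    have hbound : r ^ 2 ≤ s ^ 3 := by
      have hz' : ∑ i, tl n x i ^ 2 = s := by simp [hs, tl, LinearMap.funLeft_apply]
      have h1 := hdec (tl n x)
      have h2 : 0 ≤ ∑ p, (C *ᵥ w (tl n x)) p ^ 2 := sum_nonneg fun _ _ => sq_nonneg _
      have h3 := sum_mul_sq_le_sq_mul_sq univ (tl n x) (fun i => S (Pi.single i 1) (tl n x) (tl n x))
      rw [← hS1, ← hr, hz'] at h3
      rw [hz'] at h1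
      have hs0 : 0 ≤ s := sum_nonneg fun i _ => sq_nonneg _
      nlinarith [mul_le_mul_of_nonneg_left (show ∑ i, S (Pi.single i 1) (tl n x) (tl n x) ^ 2
        ≤ s ^ 2 by linarith) hs0]
    by_contra him
    have hre := congrArg Complex.re hz
    have him' := congrArg Complex.im hz
    simp [pow_succ] at hre him'
    set α := z.re - x 0
    have hi : 3 * α ^ 2 - z.im ^ 2 - 3 * s = 0 := by
      refine (mul_left_cancel₀ him ?_)
      simp only [α]
      linear_combination him'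
    have hr2 : r = -4 * α ^ 3 + 3 * s * α := by
      simp only [α] at hi ⊢
      linear_combination (-1 / 2 : ℝ) * hre + (3 / 2 : ℝ) * (z.re - x 0) * hi
    have hpos : 0 < z.im ^ 2 := by positivity
    have hlt : s < α ^ 2 := by linarith
    have hs0 : 0 ≤ s := sum_nonneg fun i _ => sq_nonneg _
    rw [hr2] at hbound
    nlinarith [mul_pos (mul_pos (sub_pos.mpr hlt) (show 0 < 4 * α ^ 2 - s by linarith))
      (show 0 < 4 * α ^ 2 - s by linarith)]
  · refine ⟨fun k => Sum.elim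
      (fun i : Fin n => (2:ℝ)⁻¹ • ((hd n).smulRight (LinearMap.proj i.succ : (Fin (n + 1) → ℝ) →ₗ[ℝ] ℝ)
        + (LinearMap.proj i.succ : (Fin (n + 1) → ℝ) →ₗ[ℝ] ℝ).smulRight (hd n))
        - (S (Pi.single i 1)).compl₁₂ (tl n) (tl n))
      (fun p : Fin n × Fin n => ∑ a : Fin n, ∑ b : Fin n, (C p (a, b) / 2) •
        ((LinearMap.proj a.succ : (Fin (n + 1) → ℝ) →ₗ[ℝ] ℝ).smulRight (LinearMap.proj b.succ : (Fin (n + 1) → ℝ) →ₗ[ℝ] ℝ)
        + (LinearMap.proj b.succ : (Fin (n + 1) → ℝ) →ₗ[ℝ] ℝ).smulRight (LinearMap.proj a.succ : (Fin (n + 1) → ℝ) →ₗ[ℝ] ℝ)))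
      ((finSumFinEquiv.symm.trans (Equiv.sumCongr (Equiv.refl _) finProdFinEquiv.symm)) k),
      -famT S (dir n), hT, ?_, ?_, ?_⟩
    · intro k x y
      generalize (finSumFinEquiv.symm.trans (Equiv.sumCongr (Equiv.refl _) finProdFinEquiv.symm)) k = q
      rcases q with i | p
      · simp [hd]; rw [hS.swap23 _ (tl n x)]; ring
      · simp only [Sum.elim_inr, LinearMap.sum_apply, LinearMap.smul_apply, LinearMap.add_apply,
          LinearMap.smulRight_apply, LinearMap.proj_apply, smul_eq_mul]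
        exact sum_congr rfl fun a _ => sum_congr rfl fun b _ => by ring
    · rintro y hy ⟨hq, hb⟩
      rw [famT_dir2] at hq
      rw [famT_dir2] at hb
      simp [dir] at hb
      simp only [hd, LinearMap.proj_apply]
      refine lt_of_le_of_ne hb fun h0 => hy ?_
      rw [← h0] at hq
      have hsum : ∑ i : Fin n, y i.succ * y i.succ = 0 :=
        le_antisymm (by linarith) (sum_nonneg fun i _ => mul_self_nonneg _)
      have hz := (sum_eq_zero_iff_of_nonneg fun i _ => mul_self_nonneg _).mp hsum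
      ext i
      refine Fin.cases ?_ (fun j => ?_) i
      · simpa using h0.symm
      · simpa using hz j (mem_univ _)
    · intro y
      rw [Fintype.sum_equiv (finSumFinEquiv.symm.trans (Equiv.sumCongr (Equiv.refl _)
        finProdFinEquiv.symm)) _ (fun q => (Sum.elim
          (fun i : Fin n => (y 0 * y i.succ - S (Pi.single i 1) (tl n y) (tl n y)) ^ 2)
          (fun p : Fin n × Fin n => (C *ᵥ w (tl n y)) p ^ 2)) q) ?_]
      · rw [Fintype.sum_sum_type]
        simp only [Sum.elim_inl, Sum.elim_inr]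
        have h1 := hdec (tl n y)
        have e : ∑ i, (y 0 * y (Fin.succ i) - S (Pi.single i 1) (tl n y) (tl n y)) ^ 2 =
            y 0 ^ 2 * (∑ i : Fin n, y i.succ ^ 2) - 2 * y 0 * S (tl n y) (tl n y) (tl n y)
              + ∑ i, S (Pi.single i 1) (tl n y) (tl n y) ^ 2 := by
          rw [hS1, mul_sum, mul_sum, ← sum_sub_distrib, ← sum_add_distrib]
          exact sum_congr rfl fun i _ => by simp [tl, LinearMap.funLeft_apply]; ring
        have hz' : ∑ i, tl n y i ^ 2 = ∑ i : Fin n, y i.succ ^ 2 := by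
          simp [tl, LinearMap.funLeft_apply]
        rw [hz'] at h1
        rw [e, famT_cube]
        simp only [hd, LinearMap.neg_apply, famT_dir2, LinearMap.proj_apply, ← sq]
        linear_combination -h1
      · intro k
        generalize (finSumFinEquiv.symm.trans (Equiv.sumCongr (Equiv.refl _) finProdFinEquiv.symm)) k = q
        rcases q with i | p
        · simp [hd]; ring
        · congr 1
          simp only [Sum.elim_inr, LinearMap.sum_apply, LinearMap.smul_apply, LinearMap.add_apply,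
            LinearMap.smulRight_apply, LinearMap.proj_apply, smul_eq_mul, mulVec, dotProduct,
            Fintype.sum_prod_type, hw, tl, LinearMap.funLeft_apply]
          exact sum_congr rfl fun a _ => sum_congr rfl fun b _ => by ring

end Vale.Agent.P256.Cubic
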