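import Vale.Agent.P256.Cubic.Base

namespace Vale.Agent.P256.Cubic

variable {n : ℕ}

/-- The cubic form `x ↦ T x x x` has only real roots on the lines in direction `e`. -/
def Hyp (T : Tri n) (e : Fin n → ℝ) : Prop :=
  0 < T e e e ∧ ∀ (x : Fin n → ℝ) (z : ℂ),
    (T e e e : ℂ) * z ^ 3 - 3 * (T e e x : ℂ) * z ^ 2 + 3 * (T e x x : ℂ) * z - (T x x x : ℂ) = 0 →
      z.im = 0

lemma cubic_factor {a b c d : ℝ} (ha : 0 < a)
    (hr : ∀ z : ℂ, (a : ℂ) * z ^ 3 - 3 * (b : ℂ) * z ^ 2 + 3 * (c : ℂ) * z - (d : ℂ) = 0 →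
      z.im = 0) :
    ∃ r B C : ℝ, 3 * b = a * r - B ∧ 3 * c = C - B * r ∧ d = C * r ∧ 0 ≤ B ^ 2 - 4 * a * C := by
  set f : ℝ → ℝ := fun s => a * s ^ 3 - 3 * b * s ^ 2 + 3 * c * s - d with hf
  set N := 1 + (3 * |b| + 3 * |c| + |d|) / a with hN
  have hN1 : 1 ≤ N := by rw [hN]; linarith [show 0 ≤ (3 * |b| + 3 * |c| + |d|) / a by positivity]
  have haN : a * N = a + (3 * |b| + 3 * |c| + |d|) := by rw [hN]; field_simp
  have hN2 : N ≤ N ^ 2 := by nlinarith
  have hb1 := mul_le_mul_of_nonneg_left (le_abs_self b) (sq_nonneg N)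
  have hb2 := mul_le_mul_of_nonneg_left (neg_abs_le b) (sq_nonneg N)
  have hc1 : |c * N| ≤ |c| * N ^ 2 := by
    rw [abs_mul, abs_of_pos (by linarith : (0:ℝ) < N)]
    exact mul_le_mul_of_nonneg_left hN2 (abs_nonneg c)
  have hd1 : |d| ≤ |d| * N ^ 2 := le_mul_of_one_le_right (abs_nonneg d) (by nlinarith)
  have e3 : a * N ^ 3 = (a + (3 * |b| + 3 * |c| + |d|)) * N ^ 2 := by rw [← haN]; ring
  have hpos : 0 ≤ f N := by
    simp only [hf]
    nlinarith [abs_le.mp hc1, abs_le.mp hd1]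
  have hneg : f (-N) ≤ 0 := by
    simp only [hf]
    nlinarith [abs_le.mp hc1, abs_le.mp hd1]
  obtain ⟨r, -, hr0⟩ := intermediate_value_Icc (show -N ≤ N by linarith)
    (f := f) (by fun_prop) ⟨hneg, hpos⟩
  simp only [hf] at hr0
  refine ⟨r, a * r - 3 * b, 3 * c + (a * r - 3 * b) * r, by ring, by ring, by
    linear_combination -hr0, ?_⟩
  by_contra h
  push Not at h
  set B := a * r - 3 * b with hB
  set C := 3 * c + B * r with hC
  obtain ⟨s, hs0, hs⟩ : ∃ s, 0 < s ∧ s ^ 2 = 4 * a * C - B ^ 2 :=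
    ⟨Real.sqrt (4 * a * C - B ^ 2), Real.sqrt_pos.mpr (by linarith), Real.sq_sqrt (by linarith)⟩
  have hq : (a : ℂ) * (((-B : ℂ) + s * Complex.I) / (2 * a)) ^ 2
      + B * (((-B : ℂ) + s * Complex.I) / (2 * a)) + C = 0 := by
    have hs' : (s : ℂ) ^ 2 = 4 * a * C - B ^ 2 := by exact_mod_cast hs
    have : (a : ℂ) ≠ 0 := by exact_mod_cast ha.ne'
    field_simp
    linear_combination (-1 : ℂ) * hs' + (s : ℂ) ^ 2 * Complex.I_sq
  have hd : (d : ℂ) = C * r := by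
    have : d = C * r := by simp only [hC, hB]; linear_combination -hr0
    exact_mod_cast this
  have := hr (((-B : ℂ) + s * Complex.I) / (2 * a)) (by
    have hb' : (3:ℂ) * b = a * r - B := by rw [hB]; push_cast; ring
    have hc' : (3:ℂ) * c = C - B * r := by rw [hC]; push_cast; ring
    rw [hb', hc', hd]
    linear_combination ((((-B : ℂ) + s * Complex.I) / (2 * a)) - r) * hq)
  rw [show ((2:ℂ) * a) = ((2 * a : ℝ) : ℂ) by push_cast; ring, Complex.div_ofReal_im] at this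
  simp at this
  rcases this with h' | h' <;> linarith

lemma Hyp.lor {T : Tri n} {e : Fin n → ℝ} (hT : IsSymTri T) (h : Hyp T e) : Lor (T e) e := by
  refine ⟨fun x y => hT.swap23 e x y, h.1, fun x => ?_⟩
  obtain ⟨r, B, C, hb, hc, hd, hD⟩ := cubic_factor h.1 (h.2 x)
  have key : 36 * (T e e x ^ 2 - T e e e * T e x x) =
      (B + 2 * T e e e * r) ^ 2 + 3 * (B ^ 2 - 4 * T e e e * C) := by
    linear_combination (12 * T e e x + 4 * (T e e e * r - B)) * hb - 12 * T e e e * hc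
  nlinarith [sq_nonneg (B + 2 * T e e e * r)]

lemma eval_sub {T : Tri n} (hT : IsSymTri T) (e x : Fin n → ℝ) (t : ℝ) :
    T (t • e - x) (t • e - x) (t • e - x) =
      T e e e * t ^ 3 - 3 * T e e x * t ^ 2 + 3 * T e x x * t - T x x x := by
  have e1 : t • e - x = (-x) + t • e := by abel
  rw [e1, tri_line hT]
  simp only [map_neg, LinearMap.neg_apply]
  ring

lemma Hyp.cone_iff {T : Tri n} {e : Fin n → ℝ} (hT : IsSymTri T) (h : Hyp T e) (x : Fin n → ℝ) :
    (∀ t : ℝ, T (t • e - x) (t • e - x) (t • e - x) = 0 → 0 ≤ t) ↔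
      Cone (T e) e x ∧ 0 ≤ T x x x := by
  simp only [eval_sub hT, Cone]
  constructor
  · intro hroot
    obtain ⟨r, B, C, hb, hc, hd, hD⟩ := cubic_factor h.1 (h.2 x)
    have ha := h.1
    obtain ⟨s, hs0, hs⟩ : ∃ s, 0 ≤ s ∧ s ^ 2 = B ^ 2 - 4 * T e e e * C :=
      ⟨_, Real.sqrt_nonneg _, Real.sq_sqrt hD⟩
    have hr : 0 ≤ r := hroot r (by linear_combination (-r ^ 2) * hb + r * hc - hd)
    have hroot2 : ∀ t, T e e e * t ^ 2 + B * t + C = 0 → 0 ≤ t := fun t ht =>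
      hroot t (by linear_combination (t - r) * ht - t ^ 2 * hb + t * hc - hd)
    have h1 := hroot2 ((-B - s) / (2 * T e e e)) (by field_simp; linear_combination hs)
    have hBs : 0 ≤ -B - s := (div_nonneg_iff.mp h1).elim (·.1) (fun h' => by linarith)
    have hB : B ≤ 0 := by linarith
    have hss : s ^ 2 ≤ B ^ 2 := by nlinarith
    have hC : 0 ≤ C := by
      by_contra hC
      nlinarith [mul_pos ha (neg_pos.mpr (not_le.mp hC))]
    refine ⟨⟨?_, ?_⟩, ?_⟩
    · nlinarith [mul_nonneg hr (neg_nonneg.mpr hB)]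
    · nlinarith [mul_nonneg hr ha.le]
    · nlinarith [mul_nonneg hr hC]
  · rintro ⟨⟨hq, hb⟩, hp⟩ t ht
    by_contra hneg
    push Not at hneg
    have ha := h.1
    nlinarith [mul_nonneg hb (sq_nonneg t), mul_nonneg hq (neg_pos.mpr hneg).le,
      mul_pos ha (pow_pos (neg_pos.mpr hneg) 3)]

end Vale.Agent.P256.Cubic
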