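import Vale.Agent.P256.Cubic.Base

namespace Vale.Agent.P256.Cubic

open Finset

variable {n m : ℕ}

/-- One atom: on `B = 0` the cubic is minus a sum of squares divided by the linear form `t`. -/
structure Atom (B : Bil n) (e : Fin n → ℝ) (P : Tri n) (t : (Fin n → ℝ) →ₗ[ℝ] ℝ)
    (H : Fin m → Bil n) (R : Bil n) : Prop where
  symP : IsSymTri P
  symH : ∀ i x y, H i x y = H i y x
  tpos : ∀ y, y ≠ 0 → Cone B e y → 0 < t y
  ident : ∀ y, -(t y * P y y y) = ∑ i, H i y y ^ 2 + B y y * R y y

variable {B : Bil n} {e : Fin n → ℝ} {P : Tri n} {t : (Fin n → ℝ) →ₗ[ℝ] ℝ}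
  {H : Fin m → Bil n} {R : Bil n}

lemma Atom.tnonneg (a : Atom B e P t H R) {y : Fin n → ℝ} (hy : Cone B e y) : 0 ≤ t y := by
  by_cases h : y = 0
  · simp [h]
  · exact (a.tpos y h hy).le

lemma Atom.null_nonpos (a : Atom B e P t H R) {y : Fin n → ℝ} (hy : Cone B e y)
    (h0 : B y y = 0) : P y y y ≤ 0 := by
  by_cases h : y = 0
  · simp [h]
  · have := a.ident y
    rw [h0, zero_mul, add_zero] at this
    have hs : (0:ℝ) ≤ ∑ i, H i y y ^ 2 := sum_nonneg fun i _ => sq_nonneg _
    nlinarith [a.tpos y h hy]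

/-- The value of `P / B` at `w`. -/
noncomputable def gval (B : Bil n) (P : Tri n) (w : Fin n → ℝ) : ℝ := P w w w / B w w

/-- The differential of `P / B` at `w`. -/
noncomputable def ell (B : Bil n) (P : Tri n) (w : Fin n → ℝ) : (Fin n → ℝ) →ₗ[ℝ] ℝ :=
  (B w w)⁻¹ • ((3:ℝ) • P w w - (2 * gval B P w) • B w)

/-- The certificate for the tangent inequality. -/
noncomputable def tau (B : Bil n) (P : Tri n) (t : (Fin n → ℝ) →ₗ[ℝ] ℝ) (H : Fin m → Bil n)
    (R : Bil n) (w : Fin n → ℝ) : Bil n :=
  t.smulRight (ell B P w) + R + ∑ i, ((2 * (H i w w / B w w)) • H i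
    - (H i w w / B w w) ^ 2 • B)

lemma tau_apply (w x y : Fin n → ℝ) : tau B P t H R w x y =
    t x * ell B P w y + R x y + ∑ i, (2 * (H i w w / B w w) * H i x y
      - (H i w w / B w w) ^ 2 * B x y) := by
  simp [tau, LinearMap.sum_apply]

lemma ell_self (w : Fin n → ℝ) (hw : 0 < B w w) : ell B P w w = gval B P w := by
  simp only [ell, gval, LinearMap.smul_apply, LinearMap.sub_apply, smul_eq_mul]
  field_simp
  ring

lemma cs_core {I : Type*} (s : Finset I) (u v : I → ℝ) (α β Tp Tm Gp Gm : ℝ)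
    (ha : 0 ≤ α) (hb : 0 ≤ β) (h1 : 0 ≤ Tp) (h2 : 0 ≤ Tm) (h3 : 0 ≤ Gp) (h4 : 0 ≤ Gm)
    (hu : ∑ i ∈ s, u i ^ 2 = Tp * Gp) (hv : ∑ i ∈ s, v i ^ 2 = Tm * Gm) :
    ∑ i ∈ s, (α * u i - β * v i) ^ 2 ≤ (α * Tp + β * Tm) * (α * Gp + β * Gm) := by
  have hcs := sum_mul_sq_le_sq_mul_sq s u v
  rw [hu, hv] at hcs
  have hbd : (∑ i ∈ s, u i * v i) ^ 2 ≤ ((Tp * Gm + Tm * Gp) / 2) ^ 2 :=
    hcs.trans (by nlinarith [sq_nonneg (Tp * Gm - Tm * Gp)])
  have habs := abs_le.mp (abs_le_of_sq_le_sq hbd (by positivity))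
  have e : ∑ i ∈ s, (α * u i - β * v i) ^ 2 =
      α ^ 2 * (Tp * Gp) + β ^ 2 * (Tm * Gm) - 2 * α * β * ∑ i ∈ s, u i * v i := by
    rw [← hu, ← hv, mul_sum, mul_sum, mul_sum, ← sum_add_distrib, ← sum_sub_distrib]
    exact sum_congr rfl fun i _ => by ring
  rw [e]
  nlinarith [mul_le_mul_of_nonneg_left habs.1 (mul_nonneg ha hb)]

lemma tau_pos_interior (hB : Lor B e) (a : Atom B e P t H R) {w y : Fin n → ℝ}
    (hw : 0 < B w w) (hwe : 0 ≤ B e w) (hy : 0 < B y y) (hye : 0 ≤ B e y) :
    0 ≤ tau B P t H R w y y := by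
  set l := ell B P w with hl
  set c : Fin m → ℝ := fun i => H i w w / B w w with hc
  set G : (Fin n → ℝ) → ℝ := fun z => B z z * l z - P z z z with hG
  set K : Fin m → (Fin n → ℝ) → ℝ := fun i z => H i z z - c i * B z z with hK
  have hid : ∀ z, B z z * tau B P t H R w z z = t z * G z - ∑ i, K i z ^ 2 := by
    intro z
    rw [tau_apply, mul_add, mul_add, mul_sum]
    have hsum : ∑ i, K i z ^ 2 + ∑ i, B z z * (2 * (H i w w / B w w) * H i z z
        - (H i w w / B w w) ^ 2 * B z z) = ∑ i, H i z z ^ 2 := by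
      rw [← sum_add_distrib]
      exact sum_congr rfl fun i _ => by simp only [hK, hc]; ring
    have := a.ident z
    simp only [hG, hl]
    linarith
  suffices h : 0 ≤ B y y * tau B P t H R w y y from (mul_nonneg_iff_of_pos_left hy).mp h
  rw [hid]
  have hP0 : 0 ≤ B w y := cone_inner hB ⟨hw.le, hwe⟩ ⟨hy.le, hye⟩
  have hD : 0 ≤ B w y ^ 2 - B w w * B y y := by linarith [rcs_gen hB w y hw]
  obtain ⟨s, hs0, hs⟩ : ∃ s, 0 ≤ s ∧ s ^ 2 = B w y ^ 2 - B w w * B y y :=
    ⟨_, Real.sqrt_nonneg _, Real.sq_sqrt hD⟩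
  have hlw : l w = gval B P w := ell_self w hw
  have hly : B w w * l y = 3 * P w w y - 2 * gval B P w * B w y := by
    simp only [hl, ell, LinearMap.smul_apply, LinearMap.sub_apply, smul_eq_mul]
    field_simp
  have hgw : gval B P w * B w w = P w w w := by rw [gval]; field_simp
  have hGl : ∀ r : ℝ, G (y + r • w) =
      G y + r * (B y y * l w + 2 * B w y * l y - 3 * P w y y) := by
    intro r
    simp only [hG]
    rw [bil_line hB.symm, tri_line a.symP]
    simp only [map_add, map_smul, smul_eq_mul]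
    rw [hlw]
    linear_combination r ^ 3 * hgw + r ^ 2 * hly
  have hKl : ∀ i, ∀ r : ℝ, K i (y + r • w) =
      K i y + r * (2 * H i w y - 2 * c i * B w y) := by
    intro i r
    have hci : c i * B w w = H i w w := by simp only [hc]; field_simp
    simp only [hK]
    rw [bil_line hB.symm, bil_line (a.symH i)]
    linear_combination (-r ^ 2) * hci
  set rp := (-B w y + s) / B w w with hrp
  set rm := (-B w y - s) / B w w with hrm
  set yp := y + rp • w with hyp
  set ym := y + rm • w with hym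
  have hqp : B yp yp = 0 := by
    rw [hyp, bil_line hB.symm, hrp]
    field_simp
    linear_combination hs
  have hqm : B ym ym = 0 := by
    rw [hym, bil_line hB.symm, hrm]
    field_simp
    linear_combination hs
  have hwp : B w yp = s := by rw [hyp, hrp]; simp; field_simp; ring
  have hwm : B w ym = -s := by rw [hym, hrm]; simp; field_simp; ring
  rcases hs0.lt_or_eq with hspos | hs00
  · have sign : ∀ z : Fin n → ℝ, B z z = 0 → 0 < B w z → Cone B e z := by
      intro z hz hwz
      refine ⟨hz.ge, ?_⟩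
      by_contra hc'
      have hneg : Cone B e (-z) := by constructor <;> simp [hz]; linarith
      have := cone_inner hB ⟨hw.le, hwe⟩ hneg
      simp only [map_neg] at this
      linarith
    have cp : Cone B e yp := sign yp hqp (hwp ▸ hspos)
    have cm : Cone B e (-ym) := sign (-ym) (by simp [hqm]) (by simp [hwm, hspos])
    set α := (B w y + s) / (2 * s) with hα
    set β := (B w y - s) / (2 * s) with hβ
    have hsle : s ≤ B w y := by
      have hh : s ^ 2 ≤ B w y ^ 2 := by nlinarith [mul_pos hw hy]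
      exact (abs_le.mp (abs_le_of_sq_le_sq hh hP0)).2
    have ha : 0 ≤ α := div_nonneg (by linarith) (by linarith)
    have hb : 0 ≤ β := div_nonneg (by linarith) (by linarith)
    have interp : ∀ f0 f1 : ℝ, f0 = α * (f0 + rp * f1) - β * (f0 + rm * f1) := by
      intro f0 f1
      rw [hα, hβ, hrp, hrm]
      field_simp
      ring
    have eG : G y = α * G yp + β * (-G ym) := by
      rw [hyp, hym, hGl, hGl]
      linarith [interp (G y) (B y y * l w + 2 * B w y * l y - 3 * P w y y)]
    have eT : t y = α * t yp + β * (-t ym) := by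
      rw [hyp, hym]
      simp only [map_add, map_smul, smul_eq_mul]
      linarith [interp (t y) (t w)]
    have eK : ∀ i, K i y = α * K i yp - β * K i ym := by
      intro i
      rw [hyp, hym, hKl, hKl]
      linarith [interp (K i y) (2 * H i w y - 2 * c i * B w y)]
    have sp : ∑ i, K i yp ^ 2 = t yp * G yp := by
      have := hid yp; rw [hqp, zero_mul] at this; linarith
    have sm : ∑ i, K i ym ^ 2 = (-t ym) * (-G ym) := by
      have := hid ym; rw [hqm, zero_mul] at this; linarith
    have gp : 0 ≤ G yp := by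
      simp only [hG, hqp, zero_mul]; linarith [a.null_nonpos cp hqp]
    have gm : 0 ≤ -G ym := by
      have := a.null_nonpos cm (by simp [hqm])
      simp at this
      simp only [hG, hqm, zero_mul]; linarith
    have tm : 0 ≤ -t ym := by have := a.tnonneg cm; simpa using this
    rw [eT, eG, sub_nonneg]
    simp only [eK]
    exact cs_core _ _ _ α β _ _ _ _ ha hb (a.tnonneg cp) tm gp gm sp sm
  · have ho : B w yp = 0 := by rw [hwp, ← hs00]
    obtain ⟨hb0, -⟩ := null_orth hB hw hqp.ge ho
    have hz : yp = 0 := by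
      by_contra hne
      have c1 : Cone B e yp := ⟨hqp.ge, hb0.ge⟩
      have c2 : Cone B e (-yp) := by constructor <;> simp [hqp, hb0]
      have h1 := a.tpos yp hne c1
      have h2 := a.tpos (-yp) (neg_ne_zero.mpr hne) c2
      simp at h2
      linarith
    have hyw : y = (-rp) • w := by
      rw [neg_smul]; exact eq_neg_of_add_eq_zero_left hz
    have hGy : G y = 0 := by
      rw [hyw]
      simp only [hG, map_smul, LinearMap.smul_apply, smul_eq_mul, hlw]
      linear_combination (-rp) ^ 3 * hgw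
    have hKy : ∀ i, K i y = 0 := by
      intro i
      rw [hyw]
      simp only [hK, hc, map_smul, LinearMap.smul_apply, smul_eq_mul]
      field_simp
      ring
    simp [hGy, hKy]

lemma tau_nonneg (hB : Lor B e) (a : Atom B e P t H R) {w y : Fin n → ℝ}
    (hw : 0 < B w w) (hwe : 0 ≤ B e w) (hy : 0 ≤ B y y) :
    0 ≤ tau B P t H R w y y := by
  suffices h : ∀ z, 0 ≤ B z z → 0 ≤ B e z → 0 ≤ tau B P t H R w z z by
    rcases le_total 0 (B e y) with h1 | h1
    · exact h y hy h1
    · simpa using h (-y) (by simpa using hy) (by simpa using h1)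
  intro z hz hze
  set F := tau B P t H R w
  have hpos : ∀ r : ℝ, 0 < r → 0 ≤ F z z + r * (F e z + F z e) + r ^ 2 * F e e := by
    intro r hr
    have h := tau_pos_interior hB a (y := z + r • e) hw hwe
      (by rw [bil_line hB.symm]; nlinarith [mul_pos (pow_pos hr 2) hB.pos, mul_nonneg hr.le hze])
      (by simp; nlinarith [hB.pos])
    simp only [map_add, map_smul, LinearMap.add_apply, LinearMap.smul_apply, smul_eq_mul] at h
    linarith
  have hlim : Filter.Tendsto (fun r : ℝ => F z z + r * (F e z + F z e) + r ^ 2 * F e e)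
      (nhdsWithin 0 (Set.Ioi 0)) (nhds (F z z)) := by
    have : Continuous fun r : ℝ => F z z + r * (F e z + F z e) + r ^ 2 * F e e := by fun_prop
    simpa using (this.tendsto 0).mono_left nhdsWithin_le_nhds
  exact ge_of_tendsto hlim (eventually_nhdsWithin_of_forall fun r hr => hpos r hr)

end Vale.Agent.P256.Cubic
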