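import Vale.Agent.P256.Cubic.Base

namespace Vale.Agent.P256.Cubic

open Finset Matrix
open scoped MatrixOrder

variable {n : ℕ}

/-- Pairing of a bilinear form with a symmetric moment matrix. -/
def pair (F : Bil n) (M : Matrix (Fin n) (Fin n) ℝ) : ℝ :=
  ∑ i, ∑ j, M i j * F (Pi.single i 1) (Pi.single j 1)

lemma bil_sum (F : Bil n) (x y : Fin n → ℝ) :
    F x y = ∑ i, ∑ j, x i * y j * F (Pi.single i 1) (Pi.single j 1) := by
  conv_lhs => rw [pi_eq_sum_univ' x, pi_eq_sum_univ' y]
  simp only [map_sum, map_smul, LinearMap.sum_apply, LinearMap.smul_apply, smul_eq_mul, mul_sum]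
  rw [sum_comm]
  exact sum_congr rfl fun i _ => sum_congr rfl fun j _ => by ring

lemma pair_add (F : Bil n) (M N : Matrix (Fin n) (Fin n) ℝ) :
    pair F (M + N) = pair F M + pair F N := by
  simp [pair, add_mul, sum_add_distrib]

lemma pair_smul (F : Bil n) (r : ℝ) (M : Matrix (Fin n) (Fin n) ℝ) :
    pair F (r • M) = r * pair F M := by
  simp [pair, mul_sum, mul_assoc]

lemma pair_vv (F : Bil n) (v : Fin n → ℝ) : pair F (vecMulVec v v) = F v v := by
  rw [bil_sum F v v]; simp [pair, vecMulVec_apply]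

/-- Rank-one decomposition with respect to one quadratic inequality. -/
lemma decompose (B : Bil n) (hs : ∀ x y, B x y = B y x) {m : ℕ} :
    ∀ v : Fin m → Fin n → ℝ, 0 ≤ ∑ i, B (v i) (v i) →
      ∃ w : Fin m → Fin n → ℝ, (∀ i, 0 ≤ B (w i) (w i)) ∧
        ∀ F : Bil n, ∑ i, F (v i) (v i) = ∑ i, F (w i) (w i) := by
  suffices h : ∀ k : ℕ, ∀ v : Fin m → Fin n → ℝ,
      (univ.filter fun i => B (v i) (v i) ≠ 0).card = k → 0 ≤ ∑ i, B (v i) (v i) →
      ∃ w : Fin m → Fin n → ℝ, (∀ i, 0 ≤ B (w i) (w i)) ∧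
        ∀ F : Bil n, ∑ i, F (v i) (v i) = ∑ i, F (w i) (w i) from fun v hv => h _ v rfl hv
  intro k
  induction k using Nat.strong_induction_on with
  | _ k ih =>
    intro v hk hv
    by_cases hall : ∀ i, 0 ≤ B (v i) (v i)
    · exact ⟨v, hall, fun _ => rfl⟩
    push Not at hall
    obtain ⟨a, ha⟩ := hall
    obtain ⟨b, hb⟩ : ∃ b, 0 < B (v b) (v b) := by
      by_contra hc
      push Not at hc
      have : ∑ i, B (v i) (v i) < 0 :=
        sum_neg' (fun i _ => hc i) ⟨a, mem_univ _, ha⟩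
      linarith
    have hab : a ≠ b := by rintro rfl; linarith
    obtain ⟨s, hs2⟩ : ∃ s, s ^ 2 = B (v a) (v b) ^ 2 - B (v a) (v a) * B (v b) (v b) :=
      ⟨_, Real.sq_sqrt (by nlinarith [sq_nonneg (B (v a) (v b))])⟩
    set l := (-B (v a) (v b) + s) / B (v b) (v b) with hl
    have hρ : 0 < 1 + l ^ 2 := by positivity
    obtain ⟨ρ, hρ0, hρ2⟩ : ∃ ρ, 0 < ρ ∧ ρ ^ 2 * (1 + l ^ 2) = 1 :=
      ⟨(Real.sqrt (1 + l ^ 2))⁻¹, by positivity, by
        rw [inv_pow, Real.sq_sqrt hρ.le]; field_simp⟩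
    set v' : Fin m → Fin n → ℝ := fun i =>
      if i = a then ρ • (v a + l • v b) else if i = b then ρ • (-(l • v a) + v b) else v i with hv'
    have hva : v' a = ρ • (v a + l • v b) := by simp [hv']
    have hvb : v' b = ρ • (-(l • v a) + v b) := by simp [hv', hab.symm]
    have hoth : ∀ i, i ≠ a → i ≠ b → v' i = v i := fun i h1 h2 => by simp [hv', h1, h2]
    have hsum : ∀ F : Bil n, ∑ i, F (v i) (v i) = ∑ i, F (v' i) (v' i) := by
      intro F
      rw [← sum_erase_add univ _ (mem_univ a), ← sum_erase_add univ (fun i => F (v' i) (v' i))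
        (mem_univ a), ← sum_erase_add (univ.erase a) (fun i => F (v i) (v i))
        (mem_erase.mpr ⟨hab.symm, mem_univ b⟩),
        ← sum_erase_add (univ.erase a) (fun i => F (v' i) (v' i))
        (mem_erase.mpr ⟨hab.symm, mem_univ b⟩)]
      have he : ∀ i ∈ (univ.erase a).erase b, F (v' i) (v' i) = F (v i) (v i) := by
        intro i hi
        simp only [mem_erase] at hi
        rw [hoth i hi.2.1 hi.1]
      rw [sum_congr rfl he, hva, hvb]
      simp only [map_add, map_smul, map_neg, LinearMap.add_apply, LinearMap.smul_apply,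
        LinearMap.neg_apply, smul_eq_mul]
      linear_combination (-(F (v a) (v a)) - F (v b) (v b)) * hρ2
    have hza : B (v' a) (v' a) = 0 := by
      rw [hva]
      simp only [map_add, map_smul, LinearMap.add_apply, LinearMap.smul_apply, smul_eq_mul,
        hs (v b) (v a)]
      rw [hl]
      field_simp
      linear_combination ρ ^ 2 * hs2
    have hlt : (univ.filter fun i => B (v' i) (v' i) ≠ 0).card < k := by
      rw [← hk]
      refine card_lt_card ?_
      rw [ssubset_iff_subset_ne]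
      refine ⟨fun i => ?_, fun heq => ?_⟩
      · simp only [mem_filter, mem_univ, true_and]
        intro hi
        by_cases h1 : i = a
        · exact absurd (h1 ▸ hza) hi
        by_cases h2 : i = b
        · subst h2; exact hb.ne'
        rwa [hoth i h1 h2] at hi
      · have : a ∈ univ.filter (fun i => B (v i) (v i) ≠ 0) := by simp [ha.ne]
        rw [← heq] at this
        simp [hza] at this
    obtain ⟨w, hw, he⟩ := ih _ hlt v' rfl (by rw [← hsum B]; exact hv)
    exact ⟨w, hw, fun F => (hsum F).trans (he F)⟩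

/-- A positive semidefinite moment matrix with `⟨B,M⟩ ≥ 0` splits along the cone of `B`. -/
lemma moment_split (B : Bil n) (hs : ∀ x y, B x y = B y x) {M : Matrix (Fin n) (Fin n) ℝ}
    (hM : M.PosSemidef) (h0 : 0 ≤ pair B M) :
    ∃ w : Fin n → Fin n → ℝ, (∀ i, 0 ≤ B (w i) (w i)) ∧
      ∀ F : Bil n, pair F M = ∑ i, F (w i) (w i) := by
  obtain ⟨C, hC⟩ : ∃ C : Matrix (Fin n) (Fin n) ℝ, M = Cᴴ * C := by
    obtain ⟨C, hC⟩ := CStarAlgebra.nonneg_iff_eq_star_mul_self.mp
      (show 0 ≤ M from Matrix.nonneg_iff_posSemidef.mpr hM)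
    exact ⟨C, hC⟩
  have hp : ∀ F : Bil n, pair F M = ∑ i, F (C i) (C i) := by
    intro F
    simp only [bil_sum F (C _) (C _), pair]
    rw [hC]
    simp only [Matrix.mul_apply, Matrix.conjTranspose_apply, star_trivial, sum_mul]
    rw [sum_comm (γ := Fin n)]
    rw [sum_comm]
    conv_rhs => rw [sum_comm]
    exact sum_congr rfl fun i _ => sum_comm
  obtain ⟨w, hw, he⟩ := decompose B hs C (by rw [← hp]; exact h0)
  exact ⟨w, hw, fun F => (hp F).trans (he F)⟩

end Vale.Agent.P256.Cubic
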