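import Vale.Agent.P256.Cubic.Base

namespace Vale.Agent.P256.Cubic

open Matrix

/-- A condition described by a linear matrix inequality. -/
def IsLMI {Z : Type} [AddCommGroup Z] [Module ℝ Z] (P : Z → Prop) : Prop :=
  ∃ (ι : Type) (_ : Fintype ι) (L : Z →ₗ[ℝ] Matrix ι ι ℝ),
    (∀ z, (L z).IsSymm) ∧ ∀ z, P z ↔ (L z).PosSemidef

variable {Z : Type} [AddCommGroup Z] [Module ℝ Z]

lemma IsLMI.congr {P Q : Z → Prop} (h : IsLMI P) (he : ∀ z, Q z ↔ P z) : IsLMI Q := by
  obtain ⟨ι, hι, L, hs, hL⟩ := h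
  exact ⟨ι, hι, L, hs, fun z => (he z).trans (hL z)⟩

lemma posSemidef_real_iff {ι : Type} [Fintype ι] (M : Matrix ι ι ℝ) :
    M.PosSemidef ↔ M.IsHermitian ∧ ∀ v, 0 ≤ v ⬝ᵥ (M *ᵥ v) := by
  rw [posSemidef_iff_dotProduct_mulVec]
  simp

lemma IsLMI.and {P Q : Z → Prop} (hP : IsLMI P) (hQ : IsLMI Q) : IsLMI fun z => P z ∧ Q z := by
  obtain ⟨ι, hι, L, hLs, hL⟩ := hP
  obtain ⟨κ, hκ, M, hMs, hM⟩ := hQ
  refine ⟨ι ⊕ κ, inferInstance,
    { toFun := fun z => fromBlocks (L z) 0 0 (M z)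
      map_add' := fun a b => by simp [fromBlocks_add]
      map_smul' := fun r a => by simp [fromBlocks_smul] }, fun z => ?_, fun z => ?_⟩
  · exact IsSymm.fromBlocks (hLs z) (transpose_zero) (hMs z)
  · simp only [LinearMap.coe_mk, AddHom.coe_mk]
    rw [hL, hM]
    constructor
    · rintro ⟨h1, h2⟩
      rw [posSemidef_real_iff] at h1 h2 ⊢
      refine ⟨IsHermitian.fromBlocks h1.1 (by simp) h2.1, fun v => ?_⟩
      have e : v = Sum.elim (v ∘ Sum.inl) (v ∘ Sum.inr) := by ext (i | i) <;> rfl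
      rw [e, fromBlocks_mulVec, sumElim_dotProduct_sumElim]
      simp only [Sum.elim_comp_inl, Sum.elim_comp_inr, zero_mulVec, add_zero, zero_add]
      exact add_nonneg (h1.2 _) (h2.2 _)
    · intro h
      exact ⟨h.submatrix Sum.inl, h.submatrix Sum.inr⟩

lemma isLMI_nonneg (f : Z →ₗ[ℝ] ℝ) : IsLMI fun z => 0 ≤ f z := by
  refine ⟨Unit, inferInstance,
    { toFun := fun z => diagonal fun _ => f z
      map_add' := fun a b => by simp [diagonal_add]
      map_smul' := fun r a => by simp [← diagonal_smul] }, fun z => ?_, fun z => ?_⟩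
  · exact isSymm_diagonal _
  · simp

lemma isLMI_eq (f : Z →ₗ[ℝ] ℝ) : IsLMI fun z => f z = 0 :=
  ((isLMI_nonneg f).and (isLMI_nonneg (-f))).congr fun z => by
    simp only [LinearMap.neg_apply, neg_nonneg]; exact ⟨fun h => by simp [h], fun h => le_antisymm h.2 h.1⟩

lemma isLMI_true : IsLMI fun _ : Z => True :=
  (isLMI_nonneg (0 : Z →ₗ[ℝ] ℝ)).congr fun z => by simp

lemma isLMI_finset {κ : Type} (s : Finset κ) (P : κ → Z → Prop) (h : ∀ i, IsLMI (P i)) :
    IsLMI fun z => ∀ i ∈ s, P i z := by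
  classical
  induction s using Finset.induction with
  | empty => exact isLMI_true.congr fun z => by simp
  | insert a s _ ih => exact ((h a).and ih).congr fun z => by simp [Finset.forall_mem_insert]

lemma isLMI_forall {κ : Type} [Fintype κ] (P : κ → Z → Prop) (h : ∀ i, IsLMI (P i)) :
    IsLMI fun z => ∀ i, P i z :=
  (isLMI_finset Finset.univ P h).congr fun z => by simp

lemma isLMI_psd {N : ℕ} (L : Z →ₗ[ℝ] Matrix (Fin N) (Fin N) ℝ) (h : ∀ z, (L z).IsSymm) :
    IsLMI fun z => (L z).PosSemidef :=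
  ⟨Fin N, inferInstance, L, h, fun _ => Iff.rfl⟩

/-- A `2 × 2` inequality `[[a,b],[b,c]] ≥ 0`. -/
lemma isLMI_two (a b c : Z →ₗ[ℝ] ℝ) :
    IsLMI fun z => (!![a z, b z; b z, c z] : Matrix (Fin 2) (Fin 2) ℝ).PosSemidef := by
  refine isLMI_psd
    { toFun := fun z => !![a z, b z; b z, c z]
      map_add' := fun x y => by ext i j; fin_cases i <;> fin_cases j <;> simp
      map_smul' := fun r x => by ext i j; fin_cases i <;> fin_cases j <;> simp } fun z => ?_
  ext i j; fin_cases i <;> fin_cases j <;> simp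

lemma two_iff (a b c : ℝ) : (!![a, b; b, c] : Matrix (Fin 2) (Fin 2) ℝ).PosSemidef ↔
    ∀ x y, 0 ≤ a * x ^ 2 + 2 * b * x * y + c * y ^ 2 := by
  rw [posSemidef_real_iff]
  constructor
  · rintro ⟨-, h⟩ x y
    have := h ![x, y]
    simp [mulVec, dotProduct, Fin.sum_univ_two] at this
    linarith
  · intro h
    refine ⟨by ext i j; fin_cases i <;> fin_cases j <;> simp, fun v => ?_⟩
    have := h (v 0) (v 1)
    simp [mulVec, dotProduct, Fin.sum_univ_two]
    linarith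

/-- The shadow of a linear matrix inequality, written as a pencil. -/
lemma shadow_of_isLMI {n : ℕ} {W : Type} [AddCommGroup W] [Module ℝ W] [FiniteDimensional ℝ W]
    {P : (Fin n → ℝ) × W → Prop} (hP : IsLMI P) :
    ∃ (k a : ℕ) (A0 : Matrix (Fin k) (Fin k) ℝ) (A : Fin n → Matrix (Fin k) (Fin k) ℝ)
      (B : Fin a → Matrix (Fin k) (Fin k) ℝ),
      A0.IsSymm ∧ (∀ i, (A i).IsSymm) ∧ (∀ j, (B j).IsSymm) ∧
        {x | ∃ w, P (x, w)} =
          {x | ∃ u : Fin a → ℝ, (A0 + ∑ i, x i • A i + ∑ j, u j • B j).PosSemidef} := by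
  classical
  obtain ⟨ι, hι, L, hs, hL⟩ := hP
  let σ := Fintype.equivFin ι
  let b := Module.finBasis ℝ W
  refine ⟨Fintype.card ι, Module.finrank ℝ W, 0,
    fun i => reindex σ σ (L (Pi.single i 1, 0)), fun j => reindex σ σ (L (0, b j)),
    isSymm_zero, fun i => (hs _).submatrix _, fun j => (hs _).submatrix _, ?_⟩
  have key : ∀ (x : Fin n → ℝ) (u : Fin (Module.finrank ℝ W) → ℝ),
      (∑ i, x i • reindex σ σ (L (Pi.single i 1, 0)) + ∑ j, u j • reindex σ σ (L (0, b j))) =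
        reindex σ σ (L (x, ∑ j, u j • b j)) := by
    intro x u
    have e : ((x, ∑ j, u j • b j) : (Fin n → ℝ) × W) =
        ∑ i, x i • ((Pi.single i 1 : Fin n → ℝ), (0:W)) + ∑ j, u j • ((0 : Fin n → ℝ), b j) := by
      ext1
      · simp [Prod.fst_sum]
        conv_lhs => rw [pi_eq_sum_univ' x]
      · simp [Prod.snd_sum]
    rw [e]
    simp only [map_add, map_sum, map_smul]
    ext p q
    simp [Matrix.sum_apply]
  have hre : ∀ z, (reindex σ σ (L z)).PosSemidef ↔ (L z).PosSemidef := fun z =>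
    posSemidef_submatrix_equiv σ.symm
  ext x
  simp only [Set.mem_setOf_eq, zero_add]
  constructor
  · rintro ⟨w, hw⟩
    refine ⟨b.equivFun w, ?_⟩
    rw [key, hre, b.sum_equivFun, ← hL]
    exact hw
  · rintro ⟨u, hu⟩
    rw [key, hre, ← hL] at hu
    exact ⟨_, hu⟩

end Vale.Agent.P256.Cubic
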