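import Vale.Agent.P256.Cubic.Line
import Vale.Agent.P256.Cubic.Moment
import Vale.Agent.P256.Cubic.Pencil
import Vale.Agent.P256.Cubic.Hyp

namespace Vale.Agent.P256.Cubic

open Finset Matrix Filter Topology

variable {n k m : ℕ}

/-- Symmetrisation, as a linear map. -/
noncomputable def symL (n : ℕ) : Matrix (Fin n) (Fin n) ℝ →ₗ[ℝ] Matrix (Fin n) (Fin n) ℝ where
  toFun M := (2:ℝ)⁻¹ • (M + Mᵀ)
  map_add' M N := by rw [transpose_add]; module
  map_smul' r M := by rw [transpose_smul]; simp [smul_add, smul_comm r]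

lemma symL_symm (M : Matrix (Fin n) (Fin n) ℝ) : (symL n M).IsSymm := by
  simp [symL, IsSymm, add_comm]

lemma symL_of_symm {M : Matrix (Fin n) (Fin n) ℝ} (h : M.IsSymm) : symL n M = M := by
  simp only [symL, LinearMap.coe_mk, AddHom.coe_mk, h.eq]
  module

/-- Pairing as a linear map. -/
def pairL (F : Bil n) : Matrix (Fin n) (Fin n) ℝ →ₗ[ℝ] ℝ where
  toFun := pair F
  map_add' := pair_add F
  map_smul' := pair_smul F

/-- Auxiliary variables. -/
abbrev Aux (n k m : ℕ) := (Fin k → Matrix (Fin n) (Fin n) ℝ) × (Fin k → Fin m → ℝ)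

/-- The constraints of the lift. -/
def Feas (B : Bil n) (t : Fin k → (Fin n → ℝ) →ₗ[ℝ] ℝ) (H : Fin k → Fin m → Bil n)
    (R : Fin k → Bil n) (z : (Fin n → ℝ) × Aux n k m) : Prop :=
  (∀ j, (symL n (z.2.1 j)).PosSemidef) ∧
  (∀ j, 0 ≤ pair B (symL n (z.2.1 j))) ∧
  (∀ j a, pair ((t j).smulRight (LinearMap.proj a)) (symL n (z.2.1 j)) = z.1 a) ∧
  (∀ j i, (!![z.2.2 j i, pair (H j i) (symL n (z.2.1 j));
      pair (H j i) (symL n (z.2.1 j)), pair B (symL n (z.2.1 j))] :
        Matrix (Fin 2) (Fin 2) ℝ).PosSemidef) ∧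
  0 ≤ ∑ j, (-(∑ i, z.2.2 j i) - pair (R j) (symL n (z.2.1 j)))

/-- `symL` of the `j`-th moment matrix, as a linear map. -/
noncomputable def momL (n k m : ℕ) (j : Fin k) :
    (Fin n → ℝ) × Aux n k m →ₗ[ℝ] Matrix (Fin n) (Fin n) ℝ :=
  symL n ∘ₗ LinearMap.proj j ∘ₗ LinearMap.fst ℝ _ _ ∘ₗ LinearMap.snd ℝ _ _

/-- The `(j,i)`-th slack variable, as a linear map. -/
def slackL (n k m : ℕ) (j : Fin k) (i : Fin m) : (Fin n → ℝ) × Aux n k m →ₗ[ℝ] ℝ :=
  LinearMap.proj i ∘ₗ LinearMap.proj j ∘ₗ LinearMap.snd ℝ _ _ ∘ₗ LinearMap.snd ℝ _ _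

lemma isLMI_feas (B : Bil n) (t : Fin k → (Fin n → ℝ) →ₗ[ℝ] ℝ) (H : Fin k → Fin m → Bil n)
    (R : Fin k → Bil n) : IsLMI (Feas B t H R) := by
  refine ((isLMI_forall _ fun j => isLMI_psd (momL n k m j) fun z => symL_symm _).and
    ((isLMI_forall _ fun j => isLMI_nonneg (pairL B ∘ₗ momL n k m j)).and
    ((isLMI_forall _ fun j => isLMI_forall _ fun a =>
      isLMI_eq (pairL ((t j).smulRight (LinearMap.proj a)) ∘ₗ momL n k m j
        - LinearMap.proj a ∘ₗ LinearMap.fst ℝ _ _)).and
    ((isLMI_forall _ fun j => isLMI_forall _ fun i =>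
      isLMI_two (slackL n k m j i) (pairL (H j i) ∘ₗ momL n k m j) (pairL B ∘ₗ momL n k m j)).and
    (isLMI_nonneg (∑ j, (-(∑ i, slackL n k m j i) - pairL (R j) ∘ₗ momL n k m j))))))).congr
    fun z => ?_
  simp [Feas, momL, slackL, pairL, sub_eq_zero]

lemma cone_smul {B : Bil n} {e x : Fin n → ℝ} (hx : Cone B e x) {r : ℝ} (hr : 0 ≤ r) :
    Cone B e (r • x) := by
  constructor
  · simp; exact mul_nonneg hr (mul_nonneg hr hx.1)
  · simp; exact mul_nonneg hr hx.2

lemma cone_weighted {B : Bil n} {e : Fin n → ℝ} {t : (Fin n → ℝ) →ₗ[ℝ] ℝ}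
    (hB : Lor B e) (ht : ∀ y, Cone B e y → 0 ≤ t y) {I : Type*} (s : Finset I)
    (w : I → Fin n → ℝ) (hw : ∀ i ∈ s, 0 ≤ B (w i) (w i)) :
    Cone B e (∑ i ∈ s, t (w i) • w i) := by
  refine Finset.sum_induction _ (Cone B e) (fun a b => cone_add hB) (by simp [Cone]) ?_
  intro i hi
  rcases le_total 0 (B e (w i)) with h | h
  · exact cone_smul ⟨hw i hi, h⟩ (ht _ ⟨hw i hi, h⟩)
  · have hc : Cone B e (-w i) := ⟨by simpa using hw i hi, by simpa using h⟩
    simpa using cone_smul hc (ht _ hc)

lemma main (T : Tri n) (e : Fin n → ℝ) (P : Fin k → Tri n) (t : Fin k → (Fin n → ℝ) →ₗ[ℝ] ℝ)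
    (H : Fin k → Fin m → Bil n) (R : Fin k → Bil n) (hT : IsSymTri T) (hh : Hyp T e)
    (ha : ∀ j, Atom (T e) e (P j) (t j) (H j) (R j))
    (hsum : ∀ y, ∑ j, P j y y y = T y y y) :
    {x | ∀ s : ℝ, T (s • e - x) (s • e - x) (s • e - x) = 0 → 0 ≤ s} =
      {x | ∃ w, Feas (T e) t H R (x, w)} := by
  have hB := hh.lor hT
  set B := T e with hBdef
  have hpe := hh.1
  have hece : Cone B e e := ⟨hpe.le, hpe.le⟩
  have he0 : e ≠ 0 := by intro h; rw [h] at hpe; simp at hpe
  ext x
  simp only [Set.mem_setOf_eq]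
  rw [hh.cone_iff hT]
  constructor
  · rintro ⟨hx, hp⟩
    by_cases hx0 : x = 0
    · subst hx0
      refine ⟨(0, 0), ?_, ?_, ?_, ?_, ?_⟩ <;> simp [pair, two_iff, PosSemidef.zero]
    have htx : ∀ j, 0 < t j x := fun j => (ha j).tpos x hx0 hx
    set U : Fin k → Fin m → ℝ := fun j i => H j i x x ^ 2 / (B x x * t j x) with hU
    refine ⟨(fun j => (t j x)⁻¹ • vecMulVec x x, U), ?_⟩
    have hS : ∀ j, symL n ((t j x)⁻¹ • vecMulVec x x) = (t j x)⁻¹ • vecMulVec x x := fun j => by
      apply symL_of_symm
      ext a b; simp [vecMulVec_apply, mul_comm]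
    have hlim : B x x = 0 → (∀ j i, H j i x x = 0) ∧ 0 ≤ -∑ j, R j x x / t j x := by
      intro hq
      have hb : 0 ≤ B e x := hx.2
      set G : ℝ → ℝ := fun r => ∑ j, ∑ i, (H j i (x + r • e) (x + r • e)) ^ 2 / t j (x + r • e)
      set S : ℝ → ℝ := fun r => -∑ j, R j (x + r • e) (x + r • e) / t j (x + r • e)
      have hineq : ∀ r : ℝ, 0 < r → G r ≤ B (x + r • e) (x + r • e) * S r := by
        intro r hr
        have hy : Cone B e (x + r • e) := cone_add hB hx (cone_smul hece hr.le)
        have hqy : 0 < B (x + r • e) (x + r • e) := by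
          rw [bil_line hB.symm, hq]
          have : 0 < B e e := hpe
          positivity
        have hne : x + r • e ≠ 0 := fun h => by rw [h] at hqy; simp at hqy
        have hpy : 0 ≤ T (x + r • e) (x + r • e) (x + r • e) := by
          rw [tri_line hT]
          have h1 : 0 ≤ T e x x := hx.1
          have h2 : 0 ≤ T e e x := hb
          positivity
        have key : ∀ j, ∑ i, (H j i (x + r • e) (x + r • e)) ^ 2 / t j (x + r • e) =
            -(P j (x + r • e) (x + r • e) (x + r • e)) + B (x + r • e) (x + r • e) *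
              -(R j (x + r • e) (x + r • e) / t j (x + r • e)) := by
          intro j
          have := (ha j).tpos _ hne hy
          rw [← Finset.sum_div]
          field_simp
          linarith [(ha j).ident (x + r • e)]
        simp only [G, S, key, sum_add_distrib, sum_neg_distrib, ← mul_sum, hsum]
        linarith
      have hcont : ∀ j, ContinuousAt (fun r : ℝ => t j (x + r • e)) 0 := fun j => by
        simp only [map_add, map_smul]; fun_prop
      have hne0 : ∀ j, t j (x + (0:ℝ) • e) ≠ 0 := fun j => by simpa using (htx j).ne'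
      have hGc : ContinuousAt G 0 := by
        refine tendsto_finsetSum _ fun j _ => tendsto_finsetSum _ fun i _ => ?_
        refine ContinuousAt.div ?_ (hcont j) (hne0 j)
        simp only [map_add, map_smul, LinearMap.add_apply, LinearMap.smul_apply]; fun_prop
      have hSc : ContinuousAt S 0 := by
        refine Tendsto.neg (tendsto_finsetSum _ fun j _ => ?_)
        refine ContinuousAt.div ?_ (hcont j) (hne0 j)
        simp only [map_add, map_smul, LinearMap.add_apply, LinearMap.smul_apply]; fun_prop
      have hq0 : ContinuousAt (fun r : ℝ => B (x + r • e) (x + r • e)) 0 := by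
        simp only [map_add, map_smul, LinearMap.add_apply, LinearMap.smul_apply]; fun_prop
      have hev : ∀ᶠ r in 𝓝[>] (0:ℝ), G r ≤ B (x + r • e) (x + r • e) * S r :=
        eventually_nhdsWithin_of_forall fun r hr => hineq r hr
      have hle := le_of_tendsto_of_tendsto (hGc.tendsto.mono_left nhdsWithin_le_nhds)
        ((hq0.mul hSc).tendsto.mono_left nhdsWithin_le_nhds) hev
      simp only [zero_smul, add_zero, Pi.mul_apply, hq, zero_mul] at hle
      have hterm : ∀ j ∈ univ, 0 ≤ ∑ i, (H j i x x) ^ 2 / t j x := fun j _ =>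
        sum_nonneg fun i _ => div_nonneg (sq_nonneg _) (htx j).le
      have hz : ∑ j, ∑ i, (H j i x x) ^ 2 / t j x = 0 :=
        le_antisymm (by simpa [G] using hle) (sum_nonneg hterm)
      refine ⟨fun j i => ?_, ?_⟩
      · have h1 := (sum_eq_zero_iff_of_nonneg hterm).mp hz j (mem_univ _)
        have h2 := (sum_eq_zero_iff_of_nonneg fun i _ => div_nonneg (sq_nonneg (H j i x x))
          (htx j).le).mp h1 i (mem_univ _)
        simpa [(htx j).ne'] using h2
      · have hSev : ∀ᶠ r in 𝓝[>] (0:ℝ), 0 ≤ S r := by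
          have hp : ∀ᶠ r in 𝓝[>] (0:ℝ), ∀ j, 0 < t j (x + r • e) :=
            eventually_all.mpr fun j => ((hcont j).eventually
              (lt_mem_nhds (by simpa using htx j))).filter_mono nhdsWithin_le_nhds
          filter_upwards [hev, hp, self_mem_nhdsWithin] with r h1 h2 h3
          have hG : 0 ≤ G r := sum_nonneg fun j _ => sum_nonneg fun i _ =>
            div_nonneg (sq_nonneg _) (h2 j).le
          have hqy : 0 < B (x + r • e) (x + r • e) := by
            rw [bil_line hB.symm, hq]
            have : 0 < B e e := hpe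
            have : (0:ℝ) < r := h3
            positivity
          exact (mul_nonneg_iff_of_pos_left hqy).mp (hG.trans h1)
        simpa [S] using ge_of_tendsto (hSc.tendsto.mono_left nhdsWithin_le_nhds) hSev
    refine ⟨fun j => ?_, fun j => ?_, fun j a => ?_, fun j i => ?_, ?_⟩ <;> simp only [hS]
    · refine PosSemidef.smul ?_ (by have := htx j; positivity)
      simpa using posSemidef_vecMulVec_self_star x
    · rw [pair_smul, pair_vv]; exact mul_nonneg (by have := htx j; positivity) hx.1
    · rw [pair_smul, pair_vv]; simp; field_simp [(htx j).ne']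
    · rw [two_iff]
      intro u v
      simp only [pair_smul, pair_vv, hU]
      rcases (show 0 ≤ B x x from hx.1).lt_or_eq with hq | hq
      · have := htx j
        have e1 : H j i x x ^ 2 / (B x x * t j x) * u ^ 2 + 2 * ((t j x)⁻¹ * H j i x x) * u * v
            + (t j x)⁻¹ * B x x * v ^ 2 =
            (H j i x x * u + B x x * v) ^ 2 / (B x x * t j x) := by field_simp; ring
        rw [e1]
        exact div_nonneg (sq_nonneg _) (mul_pos hq this).le
      · simp [← hq, (hlim hq.symm).1 j i]
    · simp only [pair_smul, pair_vv, hU]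
      rcases (show 0 ≤ B x x from hx.1).lt_or_eq with hq | hq
      · have key : ∀ j, -(∑ i, H j i x x ^ 2 / (B x x * t j x)) - (t j x)⁻¹ * R j x x =
            P j x x x / B x x := by
          intro j
          have := htx j
          rw [← Finset.sum_div]
          field_simp
          linarith [(ha j).ident x]
        rw [sum_congr rfl fun j _ => key j, ← Finset.sum_div, hsum]
        exact div_nonneg hp hq.le
      · simpa [← hq, div_eq_inv_mul] using (hlim hq.symm).2
  · rintro ⟨⟨M, U⟩, h1, h2, h3, h4, h5⟩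
    simp only at h1 h2 h3 h4 h5
    obtain ⟨j0⟩ : Nonempty (Fin k) := by
      rcases isEmpty_or_nonempty (Fin k) with h | h
      · exfalso
        have := hsum e
        simp at this
        linarith
      · exact h
    choose w hw hpair using fun j => moment_split B hB.symm (h1 j) (h2 j)
    have hxw : ∀ j, x = ∑ i, t j (w j i) • w j i := by
      intro j; ext a; rw [← h3 j a, hpair]; simp
    have hxc : Cone B e x := by
      rw [hxw j0]
      exact cone_weighted hB (fun y hy => (ha j0).tnonneg hy) _ _ fun i _ => hw j0 i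
    refine ⟨hxc, ?_⟩
    have hb0 : 0 < B e e := hpe
    have main' : ∀ r : ℝ, 0 < r → 0 ≤ T (x + r • e) (x + r • e) (x + r • e) := by
      intro r hr
      set y := x + r • e with hy
      have hyc : Cone B e y := cone_add hB hxc (cone_smul hece hr.le)
      have hqy : 0 < B y y := by
        rw [hy, bil_line hB.symm]
        nlinarith [mul_pos (pow_pos hr 2) hb0, mul_nonneg hr.le hxc.2, hxc.1]
      have key : ∀ j, -(∑ i, U j i) - pair (R j) (symL n (M j)) + r * (P j e e e / B e e) ≤
          gval B (P j) y := by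
        intro j
        have hte : 0 < t j e := (ha j).tpos e he0 hece
        set c := fun i => H j i y y / B y y with hc
        have htau : ∀ z, 0 ≤ B z z → 0 ≤ tau B (P j) (t j) (H j) (R j) y z z := fun z hz =>
          tau_nonneg hB (ha j) hqy hyc.2 hz
        have s1 : 0 ≤ ∑ a, tau B (P j) (t j) (H j) (R j) y (w j a) (w j a) :=
          sum_nonneg fun a _ => htau _ (hw j a)
        have eℓ : ∑ a, t j (w j a) * ell B (P j) y (w j a) = ell B (P j) y x := by
          conv_rhs => rw [hxw j]
          simp [map_sum]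
        simp only [tau_apply] at s1
        rw [sum_add_distrib, sum_add_distrib, eℓ, ← hpair, sum_comm] at s1
        simp only [sum_sub_distrib, ← mul_sum, ← hpair] at s1
        have s2 := htau e hb0.le
        rw [tau_apply] at s2
        have u1 : ∀ i, 2 * c i * pair (H j i) (symL n (M j)) - c i ^ 2 * pair B (symL n (M j))
            ≤ U j i := by
          intro i
          have := (two_iff _ _ _).mp (h4 j i) 1 (-c i)
          linarith
        have u2 : ∀ i, 2 * c i * H j i e e - c i ^ 2 * B e e ≤ H j i e e ^ 2 / B e e := by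
          intro i
          rw [le_div_iff₀ hb0]
          nlinarith [sq_nonneg (H j i e e - c i * B e e)]
        have S1 := sum_le_sum (s := univ) fun i _ => u1 i
        have S2 := sum_le_sum (s := univ) fun i _ => u2 i
        simp only [hc, sum_sub_distrib, ← Finset.sum_div] at S1 S2 s1 s2
        have hid := (ha j).ident e
        have eP : (∑ i, H j i e e ^ 2) / B e e + R j e e = -(t j e * (P j e e e / B e e)) := by
          field_simp
          linarith
        have hgy : gval B (P j) y = ell B (P j) y x + r * ell B (P j) y e := by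
          rw [← ell_self y hqy]
          conv_lhs => arg 2; rw [hy]
          simp
        have h6 : 0 ≤ t j e * (ell B (P j) y e - P j e e e / B e e) := by linarith
        have h7 := (mul_nonneg_iff_of_pos_left hte).mp h6
        rw [hgy]
        nlinarith [mul_nonneg hr.le h7]
      have hs := sum_le_sum (s := univ) fun j _ => key j
      simp only [gval, sum_add_distrib, ← mul_sum, ← Finset.sum_div, hsum] at hs
      have h9 : 0 ≤ T y y y / B y y := by
        have : 0 ≤ r * (T e e e / B e e) := mul_nonneg hr.le (div_nonneg hpe.le hb0.le)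
        linarith
      exact (div_nonneg_iff.mp h9).elim (·.1) (fun h => absurd h.2 (not_le.mpr hqy))
    have hcont : Continuous fun r : ℝ => T (x + r • e) (x + r • e) (x + r • e) := by
      simp only [tri_line hT]; fun_prop
    simpa using ge_of_tendsto (hcont.tendsto 0 |>.mono_left (nhdsWithin_le_nhds (s := Set.Ioi 0)))
      (eventually_nhdsWithin_of_forall fun r hr => main' r hr)

end Vale.Agent.P256.Cubic
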